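import Mathlib.GroupTheory.FreeAbelianGroup
import Mathlib.GroupTheory.QuotientGroup.Basic
import Mathlib.Data.Matrix.Block
import Mathlib.Data.Matrix.Mul
import Mathlib.Data.Fintype.EquivFin
import Mathlib.RingTheory.NonUnitalSubring.Basic

/-! P089: abelian groups given by generators and relations, and the group `K_0` of a ring. -/

namespace Vale.Agent.P089G

open Matrix

universe u

/-! ### Abelian groups given by generators and relations -/

/-- The relations `[a] = [b]` for `E a b` and `[c] = [a] + [b]` for `D a b c`. -/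
def presRel {S : Type u} (E : S → S → Prop) (D : S → S → S → Prop) :
    AddSubgroup (FreeAbelianGroup S) :=
  AddSubgroup.closure ({z | ∃ a b, E a b ∧ z = .of a - .of b} ∪
    {z | ∃ a b c, D a b c ∧ z = .of c - .of a - .of b})

/-- The abelian group with generators `S` and these relations. -/
def Pres {S : Type u} (E : S → S → Prop) (D : S → S → S → Prop) : Type u :=
  FreeAbelianGroup S ⧸ presRel E D

instance presGroup {S : Type u} (E : S → S → Prop) (D : S → S → S → Prop) :
    AddCommGroup (Pres E D) :=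
  QuotientAddGroup.Quotient.addCommGroup _

/-- The class of a generator. -/
def Pres.of {S : Type u} (E : S → S → Prop) (D : S → S → S → Prop) (s : S) : Pres E D :=
  QuotientAddGroup.mk (FreeAbelianGroup.of s)

theorem presRel_map {S T : Type u} {E : S → S → Prop} {D : S → S → S → Prop}
    {E' : T → T → Prop} {D' : T → T → T → Prop} (f : S → T)
    (hE : ∀ a b, E a b → E' (f a) (f b)) (hD : ∀ a b c, D a b c → D' (f a) (f b) (f c)) :
    presRel E D ≤ (presRel E' D').comap (FreeAbelianGroup.map f) := by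
  refine (AddSubgroup.closure_le _).2 ?_
  rintro _ (⟨a, b, h, rfl⟩ | ⟨a, b, c, h, rfl⟩)
  · exact AddSubgroup.subset_closure (Or.inl ⟨_, _, hE a b h, by simp⟩)
  · exact AddSubgroup.subset_closure (Or.inr ⟨_, _, _, hD a b c h, by simp⟩)

/-- The homomorphism induced by a map of generators which preserves the relations. -/
def Pres.map {S T : Type u} {E : S → S → Prop} {D : S → S → S → Prop}
    {E' : T → T → Prop} {D' : T → T → T → Prop} (f : S → T)
    (hE : ∀ a b, E a b → E' (f a) (f b)) (hD : ∀ a b c, D a b c → D' (f a) (f b) (f c)) :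
    Pres E D →+ Pres E' D' :=
  QuotientAddGroup.map _ _ (FreeAbelianGroup.map f) (presRel_map f hE hD)

/-! ### The group `K_0` -/

/-- An idempotent matrix over `R`. -/
structure Idem (R : Type) [Ring R] : Type where
  n : ℕ
  e : Matrix (Fin n) (Fin n) R
  idem : e * e = e

/-- Algebraic equivalence: `a = x y` and `b = y x`. -/
def Idem.Sim {R : Type} [Ring R] (a b : Idem R) : Prop :=
  ∃ (x : Matrix (Fin a.n) (Fin b.n) R) (y : Matrix (Fin b.n) (Fin a.n) R),
    x * y = a.e ∧ y * x = b.e

/-- `c = a ⊕ b`. -/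
def Idem.IsSum {R : Type} [Ring R] (a b c : Idem R) : Prop :=
  ∃ σ : Fin c.n ≃ Fin a.n ⊕ Fin b.n, c.e = (fromBlocks a.e 0 0 b.e).submatrix σ σ

/-- The group `K_0(R)` of a unital ring. -/
abbrev KZero (R : Type) [Ring R] : Type := Pres (Idem.Sim (R := R)) Idem.IsSum

/-- The class in `K_0(R)` of an idempotent matrix. -/
noncomputable def KZero.cls {R : Type} [Ring R] {ι : Type} [Fintype ι] (e : Matrix ι ι R)
    (h : e * e = e) : KZero R :=
  Pres.of _ _ ⟨Fintype.card ι, e.submatrix (Fintype.equivFin ι).symm (Fintype.equivFin ι).symm,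
    by rw [submatrix_mul_equiv, h]⟩

theorem mapN_mul {R S : Type} [Ring R] [Ring S] {ι κ μ : Type} [Fintype κ] (φ : R →ₙ+* S)
    (x : Matrix ι κ R) (y : Matrix κ μ R) : (x * y).map φ = x.map φ * y.map φ := by
  ext i j
  simp [Matrix.mul_apply, map_sum]

/-- The image of an idempotent matrix under a ring homomorphism that need not be unital. -/
def Idem.map {R S : Type} [Ring R] [Ring S] (φ : R →ₙ+* S) (a : Idem R) : Idem S :=
  ⟨a.n, a.e.map φ, by rw [← mapN_mul, a.idem]⟩

theorem Idem.map_sim {R S : Type} [Ring R] [Ring S] (φ : R →ₙ+* S) :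
    ∀ a b : Idem R, a.Sim b → (a.map φ).Sim (b.map φ) := fun _ _ ⟨x, y, h1, h2⟩ =>
  ⟨x.map φ, y.map φ, (mapN_mul φ x y).symm.trans (congrArg (fun m => m.map φ) h1),
    (mapN_mul φ y x).symm.trans (congrArg (fun m => m.map φ) h2)⟩

theorem Idem.map_isSum {R S : Type} [Ring R] [Ring S] (φ : R →ₙ+* S) :
    ∀ a b c : Idem R, a.IsSum b c → (a.map φ).IsSum (b.map φ) (c.map φ) := by
  rintro a b c ⟨σ, h⟩
  refine ⟨σ, ?_⟩
  change c.e.map φ = (fromBlocks (a.e.map φ) 0 0 (b.e.map φ)).submatrix σ σ
  rw [h, ← submatrix_map, fromBlocks_map, Matrix.map_zero _ (map_zero φ),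
    Matrix.map_zero _ (map_zero φ)]

/-- Functoriality of `K_0` for ring homomorphisms that need not be unital. -/
def KZero.map {R S : Type} [Ring R] [Ring S] (φ : R →ₙ+* S) : KZero R →+ KZero S :=
  Pres.map (Idem.map φ) (Idem.map_sim φ) (Idem.map_isSum φ)

end Vale.Agent.P089G
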