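import Vale.Agent.P089GM.KDefs
import Mathlib.Data.Matrix.ColumnRowPartitioned
import Mathlib.GroupTheory.MonoidLocalization.GrothendieckGroup
import Mathlib.Logic.Equiv.Fin.Basic
import Mathlib.Tactic.Abel

/-! P089: the basic properties of `Pres` and of `K_0`. -/

namespace Vale.Agent.P089G

open Matrix

universe u v

section Pres

variable {S : Type u} {E : S → S → Prop} {D : S → S → S → Prop} {Γ : Type v} [AddCommGroup Γ]

theorem Pres.of_sim {a b : S} (h : E a b) : Pres.of E D a = Pres.of E D b := by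
  rw [← sub_eq_zero]
  exact (QuotientAddGroup.eq_zero_iff _).2 (AddSubgroup.subset_closure (Or.inl ⟨a, b, h, rfl⟩))

theorem Pres.of_sum {a b c : S} (h : D a b c) :
    Pres.of E D c = Pres.of E D a + Pres.of E D b := by
  rw [← sub_eq_zero, ← sub_sub]
  exact (QuotientAddGroup.eq_zero_iff _).2
    (AddSubgroup.subset_closure (Or.inr ⟨a, b, c, h, rfl⟩))

theorem Pres.map_of {T : Type u} {E' : T → T → Prop} {D' : T → T → T → Prop} (f : S → T)
    (hE : ∀ a b, E a b → E' (f a) (f b)) (hD : ∀ a b c, D a b c → D' (f a) (f b) (f c)) (a : S) :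
    Pres.map f hE hD (Pres.of E D a) = Pres.of E' D' (f a) :=
  (QuotientAddGroup.map_mk _ _ _ (presRel_map f hE hD) _).trans
    (congrArg QuotientAddGroup.mk (FreeAbelianGroup.map_of_apply a))

theorem presRel_le (f : S → Γ) (hE : ∀ a b, E a b → f a = f b)
    (hD : ∀ a b c, D a b c → f c = f a + f b) :
    presRel E D ≤ (FreeAbelianGroup.lift f).ker := by
  refine (AddSubgroup.closure_le _).2 ?_
  rintro _ (⟨a, b, h, rfl⟩ | ⟨a, b, c, h, rfl⟩)
  · simp [hE a b h]
  · simp [hD a b c h]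

/-- The homomorphism given by a function on the generators which respects the relations. -/
def Pres.lift (f : S → Γ) (hE : ∀ a b, E a b → f a = f b)
    (hD : ∀ a b c, D a b c → f c = f a + f b) : Pres E D →+ Γ :=
  QuotientAddGroup.lift _ (FreeAbelianGroup.lift f) (presRel_le f hE hD)

theorem Pres.lift_of (f : S → Γ) (hE : ∀ a b, E a b → f a = f b)
    (hD : ∀ a b c, D a b c → f c = f a + f b) (a : S) :
    Pres.lift f hE hD (Pres.of E D a) = f a :=
  (QuotientAddGroup.lift_mk _ (presRel_le f hE hD) _).trans (FreeAbelianGroup.lift_apply_of _ _)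

theorem Pres.ind {p : Pres E D → Prop} (h0 : p 0) (h1 : ∀ a, p (Pres.of E D a))
    (hn : ∀ x, p x → p (-x)) (ha : ∀ x y, p x → p y → p (x + y)) (x : Pres E D) : p x := by
  obtain ⟨z, rfl⟩ := QuotientAddGroup.mk_surjective (s := presRel E D) x
  induction z using FreeAbelianGroup.induction_on with
  | zero => exact h0
  | of a => exact h1 a
  | neg a ih => exact hn _ ih
  | add a b iha ihb => exact ha _ _ iha ihb

theorem Pres.mem_of (H : AddSubgroup (Pres E D)) (h : ∀ a, Pres.of E D a ∈ H) (x : Pres E D) :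
    x ∈ H :=
  Pres.ind (p := fun x => x ∈ H) H.zero_mem h (fun _ => H.neg_mem) (fun _ _ => H.add_mem) x

theorem Pres.hom_ext {φ ψ : Pres E D →+ Γ} (h : ∀ a, φ (Pres.of E D a) = ψ (Pres.of E D a)) :
    φ = ψ :=
  AddMonoidHom.ext fun x => Pres.mem_of (φ.eqLocus ψ) h x

theorem Pres.map_mem (φ : Pres E D →+ Γ) (H : AddSubgroup Γ) (h : ∀ a, φ (Pres.of E D a) ∈ H)
    (x : Pres E D) : φ x ∈ H :=
  Pres.mem_of (H.comap φ) h x

end Pres

/-- Murray-von Neumann equivalence of idempotent matrices. -/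
def Eqv {R : Type} [Ring R] {ι κ : Type} [Fintype ι] [Fintype κ]
    (e : Matrix ι ι R) (f : Matrix κ κ R) : Prop :=
  ∃ (x : Matrix ι κ R) (y : Matrix κ ι R), x * y = e ∧ y * x = f

section Eqv

variable {R S T : Type} [Ring R] [Ring S] [Ring T] {ι κ ι' κ' μ : Type} [Fintype ι] [Fintype κ]
  [Fintype ι'] [Fintype κ'] [Fintype μ]

theorem Eqv.refl {e : Matrix ι ι R} (h : e * e = e) : Eqv e e := ⟨e, e, h, h⟩

theorem Eqv.symm {e : Matrix ι ι R} {f : Matrix κ κ R} (h : Eqv e f) : Eqv f e := by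
  obtain ⟨x, y, h1, h2⟩ := h
  exact ⟨y, x, h2, h1⟩

theorem Eqv.trans {e : Matrix ι ι R} {f : Matrix κ κ R} {g : Matrix μ μ R}
    (he : e * e = e) (hg : g * g = g) (h : Eqv e f) (h' : Eqv f g) : Eqv e g := by
  obtain ⟨x, y, h1, h2⟩ := h
  obtain ⟨z, w, h3, h4⟩ := h'
  refine ⟨x * z, w * y, ?_, ?_⟩
  · rw [Matrix.mul_assoc, ← Matrix.mul_assoc z, h3, ← h2, Matrix.mul_assoc y x y,
      ← Matrix.mul_assoc x, h1, he]
  · rw [Matrix.mul_assoc, ← Matrix.mul_assoc y, h2, ← h3, Matrix.mul_assoc z w z,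
      ← Matrix.mul_assoc w, h4, hg]

theorem Eqv.submatrix {e : Matrix ι ι R} (he : e * e = e) (σ : κ ≃ ι) :
    Eqv (e.submatrix σ σ) e := by
  classical
  refine ⟨e.submatrix σ id, e.submatrix id σ, ?_, ?_⟩
  · have := submatrix_mul_equiv e e (σ : κ → ι) (Equiv.refl ι) (σ : κ → ι)
    rw [he] at this
    exact this
  · have := submatrix_mul_equiv e e (id : ι → ι) σ (id : ι → ι)
    rw [he] at this
    simpa using this

theorem Eqv.fromBlocks {e : Matrix ι ι R} {f : Matrix κ κ R} {e' : Matrix ι' ι' R}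
    {f' : Matrix κ' κ' R} (h : Eqv e e') (h' : Eqv f f') :
    Eqv (Matrix.fromBlocks e 0 0 f) (Matrix.fromBlocks e' 0 0 f') := by
  obtain ⟨x, y, h1, h2⟩ := h
  obtain ⟨z, w, h3, h4⟩ := h'
  refine ⟨Matrix.fromBlocks x 0 0 z, Matrix.fromBlocks y 0 0 w, ?_, ?_⟩
  · simp [Matrix.fromBlocks_multiply, h1, h3]
  · simp [Matrix.fromBlocks_multiply, h2, h4]

theorem Eqv.map (φ : R →ₙ+* S) {e : Matrix ι ι R} {f : Matrix κ κ R} (h : Eqv e f) :
    Eqv (e.map φ) (f.map φ) := by
  obtain ⟨x, y, h1, h2⟩ := h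
  exact ⟨x.map φ, y.map φ, by rw [← mapN_mul, h1], by rw [← mapN_mul, h2]⟩

theorem Eqv.add {e f : Matrix ι ι R} (he : e * e = e) (hf : f * f = f) (hef : e * f = 0)
    (hfe : f * e = 0) : Eqv (e + f) (Matrix.fromBlocks e 0 0 f) := by
  refine ⟨Matrix.fromCols e f, Matrix.fromRows e f, ?_, ?_⟩
  · rw [Matrix.fromCols_mul_fromRows, he, hf]
  · rw [Matrix.fromRows_mul_fromCols, he, hf, hef, hfe]

theorem blocks_idem {e : Matrix ι ι R} {f : Matrix κ κ R} (he : e * e = e) (hf : f * f = f) :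
    Matrix.fromBlocks e 0 0 f * Matrix.fromBlocks e 0 0 f = Matrix.fromBlocks e 0 0 f := by
  simp [Matrix.fromBlocks_multiply, he, hf]

theorem sub_idem {e : Matrix ι ι R} (he : e * e = e) (σ : κ ≃ ι) :
    e.submatrix σ σ * e.submatrix σ σ = e.submatrix σ σ := by
  rw [submatrix_mul_equiv, he]

theorem map_idem (φ : R →ₙ+* S) {e : Matrix ι ι R} (he : e * e = e) :
    e.map φ * e.map φ = e.map φ := by
  rw [← mapN_mul, he]

theorem zero_idem : (0 : Matrix ι ι R) * 0 = 0 := by simp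

theorem compl_idem [DecidableEq ι] {g : Matrix ι ι R} (hg : g * g = g) :
    (1 - g) * (1 - g) = 1 - g := by
  rw [mul_sub, sub_mul, sub_mul, hg, one_mul, mul_one, one_mul, sub_self, sub_zero]

/-- The idempotent matrix indexed by a finite type, as an element of `Idem`. -/
noncomputable def Idem.of (e : Matrix ι ι R) (h : e * e = e) : Idem R :=
  ⟨Fintype.card ι, e.submatrix (Fintype.equivFin ι).symm (Fintype.equivFin ι).symm,
    sub_idem h _⟩

theorem Idem.of_eqv (e : Matrix ι ι R) (h : e * e = e) : Eqv (Idem.of e h).e e :=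
  Eqv.submatrix h _

theorem KZero.cls_def (e : Matrix ι ι R) (h : e * e = e) :
    KZero.cls e h = Pres.of _ _ (Idem.of e h) := rfl

theorem KZero.cls_eq_of_mvn {e : Matrix ι ι R} {f : Matrix κ κ R} (he : e * e = e)
    (hf : f * f = f) (h : Eqv e f) : KZero.cls e he = KZero.cls f hf :=
  Pres.of_sim (E := Idem.Sim) (a := Idem.of e he) (b := Idem.of f hf)
    (((Idem.of_eqv e he).trans (Idem.of e he).idem hf h).trans
      (Idem.of e he).idem (Idem.of f hf).idem (Idem.of_eqv f hf).symm)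

theorem KZero.cls_congr {e f : Matrix ι ι R} (he : e * e = e) (hf : f * f = f) (h : e = f) :
    KZero.cls e he = KZero.cls f hf := by
  subst h
  rfl

theorem KZero.of_eq (a : Idem R) : (Pres.of _ _ a : KZero R) = KZero.cls a.e a.idem :=
  Pres.of_sim (E := Idem.Sim) (a := a) (b := Idem.of a.e a.idem) (Idem.of_eqv a.e a.idem).symm

theorem KZero.cls_submatrix {e : Matrix ι ι R} (he : e * e = e) (σ : κ ≃ ι) :
    KZero.cls (e.submatrix σ σ) (sub_idem he σ) = KZero.cls e he :=
  KZero.cls_eq_of_mvn _ _ (Eqv.submatrix he σ)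

theorem KZero.cls_blocks {e : Matrix ι ι R} {f : Matrix κ κ R} (he : e * e = e)
    (hf : f * f = f) : KZero.cls (Matrix.fromBlocks e 0 0 f) (blocks_idem he hf) =
      KZero.cls e he + KZero.cls f hf := by
  have h1 : KZero.cls _ (blocks_idem (Idem.of e he).idem (Idem.of f hf).idem) =
      KZero.cls e he + KZero.cls f hf :=
    Pres.of_sum (D := Idem.IsSum) (a := Idem.of e he) (b := Idem.of f hf)
      (c := Idem.of _ (blocks_idem (Idem.of e he).idem (Idem.of f hf).idem))
      ⟨(Fintype.equivFin (Fin (Idem.of e he).n ⊕ Fin (Idem.of f hf).n)).symm, rfl⟩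
  rw [← h1]
  exact KZero.cls_eq_of_mvn _ _ ((Idem.of_eqv e he).fromBlocks (Idem.of_eqv f hf)).symm

/-- Orthogonal idempotents add up in `K_0`. -/
theorem KZero.cls_add {e f : Matrix ι ι R} (he : e * e = e) (hf : f * f = f)
    (hef : e * f = 0) (hfe : f * e = 0) (h : (e + f) * (e + f) = e + f) :
    KZero.cls (e + f) h = KZero.cls e he + KZero.cls f hf := by
  rw [← KZero.cls_blocks he hf]
  exact KZero.cls_eq_of_mvn _ _ (Eqv.add he hf hef hfe)

theorem KZero.cls_zero : KZero.cls (0 : Matrix ι ι R) zero_idem = 0 := by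
  have h := KZero.cls_add (zero_idem (ι := ι) (R := R)) zero_idem zero_idem zero_idem (by simp)
  rw [KZero.cls_congr _ zero_idem (add_zero _)] at h
  exact left_eq_add.1 h

theorem KZero.cls_eq_zero {e : Matrix ι ι R} (he : e * e = e) (h : e = 0) :
    KZero.cls e he = 0 := by
  subst h
  exact KZero.cls_zero

theorem KZero.cls_compl [DecidableEq ι] {g : Matrix ι ι R} (hg : g * g = g) :
    KZero.cls g hg + KZero.cls (1 - g) (compl_idem hg) =
      KZero.cls (1 : Matrix ι ι R) (one_mul 1) := by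
  rw [← KZero.cls_add hg (compl_idem hg) (by rw [mul_sub, hg, mul_one, sub_self])
    (by rw [sub_mul, hg, one_mul, sub_self]) (by simp)]
  exact KZero.cls_congr _ _ (add_sub_cancel _ _)

/-- Conjugate idempotents have the same class. -/
theorem KZero.cls_conj [DecidableEq ι] {e f : Matrix ι ι R} (he : e * e = e) (hf : f * f = f)
    (u v : Matrix ι ι R) (hvu : v * u = 1) (h : u * e * v = f) :
    KZero.cls e he = KZero.cls f hf := by
  apply KZero.cls_eq_of_mvn
  refine ⟨e * v, u * e, ?_, ?_⟩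
  · rw [Matrix.mul_assoc, ← Matrix.mul_assoc v, hvu, Matrix.one_mul, he]
  · rw [Matrix.mul_assoc, ← Matrix.mul_assoc e, he, ← h, Matrix.mul_assoc]

theorem KZero.map_cls (φ : R →ₙ+* S) {e : Matrix ι ι R} (he : e * e = e) :
    KZero.map φ (KZero.cls e he) = KZero.cls (e.map φ) (map_idem φ he) :=
  Pres.map_of _ _ _ _

theorem KZero.hom_ext {Γ : Type v} [AddCommGroup Γ] {φ ψ : KZero R →+ Γ}
    (h : ∀ (n : ℕ) (e : Matrix (Fin n) (Fin n) R) (he : e * e = e),
      φ (KZero.cls e he) = ψ (KZero.cls e he)) : φ = ψ :=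
  Pres.hom_ext fun a => by rw [KZero.of_eq]; exact h _ _ _

theorem KZero.mem_of (H : AddSubgroup (KZero R))
    (h : ∀ (n : ℕ) (e : Matrix (Fin n) (Fin n) R) (he : e * e = e), KZero.cls e he ∈ H)
    (x : KZero R) : x ∈ H :=
  Pres.mem_of H (fun a => by rw [KZero.of_eq]; exact h _ _ _) x

theorem KZero.map_comp (φ : R →ₙ+* S) (ψ : S →ₙ+* T) (x : KZero R) :
    KZero.map (ψ.comp φ) x = KZero.map ψ (KZero.map φ x) := by
  have : KZero.map (ψ.comp φ) = (KZero.map ψ).comp (KZero.map φ) :=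
    KZero.hom_ext fun n e he => by
      rw [AddMonoidHom.comp_apply, KZero.map_cls, KZero.map_cls, KZero.map_cls]
      rfl
  rw [this]
  rfl

theorem KZero.map_id (x : KZero R) : KZero.map (NonUnitalRingHom.id R) x = x := by
  have : KZero.map (NonUnitalRingHom.id R) = AddMonoidHom.id _ :=
    KZero.hom_ext fun n e he => by
      rw [KZero.map_cls]
      rfl
  rw [this]
  rfl

/-- The homomorphism on `K_0` given by an additive invariant of idempotent matrices. -/
noncomputable def KZero.lift {Γ : Type v} [AddCommGroup Γ]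
    (t : ∀ {ι : Type} [Fintype ι] (e : Matrix ι ι R), e * e = e → Γ)
    (h1 : ∀ {ι κ : Type} [Fintype ι] [Fintype κ] (e : Matrix ι ι R) (f : Matrix κ κ R)
      (he : e * e = e) (hf : f * f = f), Eqv e f → t e he = t f hf)
    (h2 : ∀ {ι κ : Type} [Fintype ι] [Fintype κ] (e : Matrix ι ι R) (f : Matrix κ κ R)
      (he : e * e = e) (hf : f * f = f),
      t (Matrix.fromBlocks e 0 0 f) (blocks_idem he hf) = t e he + t f hf) : KZero R →+ Γ :=
  Pres.lift (fun a => t a.e a.idem) (fun a b h => h1 _ _ a.idem b.idem h) (by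
    rintro a b c ⟨σ, h⟩
    rw [← h2 _ _ a.idem b.idem]
    refine h1 _ _ _ _ ?_
    rw [h]
    exact Eqv.submatrix (blocks_idem a.idem b.idem) σ)

theorem KZero.lift_cls {Γ : Type v} [AddCommGroup Γ]
    (t : ∀ {ι : Type} [Fintype ι] (e : Matrix ι ι R), e * e = e → Γ)
    (h1 : ∀ {ι κ : Type} [Fintype ι] [Fintype κ] (e : Matrix ι ι R) (f : Matrix κ κ R)
      (he : e * e = e) (hf : f * f = f), Eqv e f → t e he = t f hf)
    (h2 : ∀ {ι κ : Type} [Fintype ι] [Fintype κ] (e : Matrix ι ι R) (f : Matrix κ κ R)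
      (he : e * e = e) (hf : f * f = f),
      t (Matrix.fromBlocks e 0 0 f) (blocks_idem he hf) = t e he + t f hf)
    (e : Matrix ι ι R) (he : e * e = e) : KZero.lift t h1 h2 (KZero.cls e he) = t e he :=
  (Pres.lift_of _ _ _ _).trans (h1 _ _ _ _ (Idem.of_eqv e he))

end Eqv

end Vale.Agent.P089G
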