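import Vale.Agent.P089GM.Kit2
import Vale.Agent.P089Z.Main

/-! P089: the relation `SameK` is equality in `K_0`; the multiples of the class of the detected
projection are not differences of classes of idempotents of finite propagation. -/

namespace Vale.Agent.P089G

open Matrix Vale.Agent.P089 Vale.Agent.P089.Asm Vale.Agent.P086 Vale.Agent.P089Z

section Bridge

variable {A B : Type} [Ring A] [Ring B] (j : A →+* B) (hj : Function.Injective j) {S : B → Prop}
  (hS : ∀ x, S x ↔ ∃ a, j a = x) {κ μ : Type} [Fintype κ] [DecidableEq κ]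

omit [Fintype κ] [DecidableEq κ] in
theorem map_blocks (e : Matrix κ κ A) (f : Matrix μ μ A) :
    (fromBlocks e 0 0 f).map j = fromBlocks (e.map j) 0 0 (f.map j) := by
  rw [fromBlocks_map, Matrix.map_zero _ (map_zero j), Matrix.map_zero _ (map_zero j)]

include hj hS in
/-- Equality in `K_0(A)` is the relation `SameK` for the image of `A`. -/
theorem cls_eq_iff_sameK {e f : Matrix κ κ A} (he : e * e = e) (hf : f * f = f) :
    KZero.cls e he = KZero.cls f hf ↔ BC.SameK S (e.map j) (f.map j) := by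
  have h1 : ∀ m : ℕ, (1 : Matrix (Fin m) (Fin m) A).map j = 1 := fun m =>
    Matrix.map_one _ (map_zero j) (map_one j)
  rw [KZero.cls_eq_iff]
  constructor
  · rintro ⟨m, x, y, hx, hy⟩
    refine ⟨m, x.map j, y.map j, fun a b => ⟨(hS _).2 ⟨_, rfl⟩, (hS _).2 ⟨_, rfl⟩⟩, ?_, ?_⟩
    · rw [← Matrix.map_mul, hx, map_blocks, h1]
    · rw [← Matrix.map_mul, hy, map_blocks, h1]
  · rintro ⟨m, x, y, hxy, hx, hy⟩
    choose x' hx' using fun a b => (hS _).1 (hxy a b).1
    choose y' hy' using fun a b => (hS _).1 (hxy a b).2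
    have e1 : (Matrix.of x').map j = x := Matrix.ext hx'
    have e2 : (Matrix.of y').map j = y := Matrix.ext hy'
    refine ⟨m, Matrix.of x', Matrix.of y', Matrix.map_injective hj ?_, Matrix.map_injective hj ?_⟩
    · change (_ : Matrix _ _ A).map j = (_ : Matrix _ _ A).map j
      rw [Matrix.map_mul, e1, e2, hx, map_blocks, h1]
    · change (_ : Matrix _ _ A).map j = (_ : Matrix _ _ A).map j
      rw [Matrix.map_mul, e1, e2, hy, map_blocks, h1]

theorem diag01_idem (A : Type) [Ring A] : diag01 A * diag01 A = diag01 A := by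
  ext i k
  fin_cases i <;> fin_cases k <;> simp [diag01, Matrix.mul_apply]

theorem map_diag01 : (diag01 A).map j = diag01 B := map_D j

theorem map_addDiag (M : Matrix (Fin 2) (Fin 2) A) : (addDiag M).map j = addDiag (M.map j) := by
  rw [addDiag, addDiag, Matrix.map_add _ (map_add j), map_diag01]

include hj hS in
/-- The relation `IndexEq` is an equation in `K_0(A)`. -/
theorem indexEq_iff {M : Matrix (Fin 2) (Fin 2) A} (hM : addDiag M * addDiag M = addDiag M)
    {m : ℕ} {q : Matrix (Fin m) (Fin m) A} (hq : q * q = q) :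
    IndexEq S (M.map j) (q.map j) ↔
      KZero.cls (addDiag M) hM - KZero.cls (diag01 A) (diag01_idem A) = KZero.cls q hq := by
  have h := cls_eq_iff_sameK j hj hS (blocks_idem hM (zero_idem (ι := Fin m)))
    (blocks_idem (diag01_idem A) hq)
  rw [map_blocks, map_blocks, map_addDiag, map_diag01, Matrix.map_zero _ (map_zero j),
    KZero.cls_blocks hM zero_idem, KZero.cls_blocks (diag01_idem A) hq, KZero.cls_zero,
    add_zero] at h
  rw [sub_eq_iff_eq_add']
  exact h.symm

end Bridge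

variable {G : Type} [Group G]

/-- The equivariant Roe operators form a subspace. -/
noncomputable def roeS (G : Type) [Group G] : Submodule ℂ (L2 (G × ℕ) →L[ℂ] L2 (G × ℕ)) where
  carrier := {S | IsRoe S}
  add_mem' h1 h2 := ((RoeB.of_isRoe h1).add (RoeB.of_isRoe h2)).isRoe
  zero_mem' := RoeB.zero.isRoe
  smul_mem' c _ h := ((RoeB.of_isRoe h).smul c).isRoe

theorem isU_iff_sup {T : L2 (G × ℕ) →L[ℂ] L2 (G × ℕ)} :
    IsU T ↔ T ∈ (roeS G).topologicalClosure ⊔ Submodule.span ℂ {1} := by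
  rw [Submodule.mem_sup]
  constructor
  · rintro ⟨c, S, hS, rfl⟩
    exact ⟨S, hS, c • 1, Submodule.mem_span_singleton.2 ⟨c, rfl⟩, add_comm _ _⟩
  · rintro ⟨S, hS, _, h1, rfl⟩
    obtain ⟨c, rfl⟩ := Submodule.mem_span_singleton.1 h1
    exact ⟨c, S, hS, add_comm _ _⟩

theorem isU_of_mem_UU {T : L2 (G × ℕ) →L[ℂ] L2 (G × ℕ)} (hT : T ∈ UU G) : IsU T := by
  have h1 := Submodule.isClosed_sup_finiteDimensional (roeS G).topologicalClosure
    (Submodule.span ℂ {(1 : L2 (G × ℕ) →L[ℂ] L2 (G × ℕ))}) (roeS G).isClosed_topologicalClosure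
  exact isU_iff_sup.2 (closure_minimal (fun y hy => isU_iff_sup.1 (roeU_isU hy)) h1 hT)

theorem isU_iff {T : L2 (G × ℕ) →L[ℂ] L2 (G × ℕ)} : IsU T ↔ T ∈ UU G :=
  ⟨IsU.mem_UU, isU_of_mem_UU⟩

/-- The inclusion of `UU G` as a ring homomorphism. -/
noncomputable def valU (G : Type) [Group G] : UU G →+* (L2 (G × ℕ) →L[ℂ] L2 (G × ℕ)) :=
  (UU G).val.toRingHom

theorem valU_apply (x : UU G) : valU G x = x.1 := rfl

theorem valU_inj : Function.Injective (valU G) := Subtype.val_injective

theorem isU_iff_valU (T : L2 (G × ℕ) →L[ℂ] L2 (G × ℕ)) : IsU T ↔ ∃ a, valU G a = T :=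
  ⟨fun h => ⟨⟨T, IsU.mem_UU h⟩, rfl⟩, fun ⟨a, h⟩ => h ▸ isU_of_mem_UU a.2⟩

/-- The differences of classes of idempotent matrices of finite propagation. -/
noncomputable def FP (G : Type) [Group G] : AddSubgroup (KZero (UU G)) :=
  KZero.sub (fun x : UU G => x.1 ∈ roeU G) (roeU G).zero_mem

theorem cls_mem_FP {ι : Type} [Fintype ι] {e : Matrix ι ι (UU G)} (he : e * e = e)
    (h : ∀ i k, (e i k).1 ∈ roeU G) : KZero.cls e he ∈ FP G :=
  KZero.cls_mem_sub _ he h

theorem diag01_mem_FP : KZero.cls (diag01 (UU G)) (diag01_idem _) ∈ FP G := by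
  refine cls_mem_FP _ fun i k => ?_
  fin_cases i <;> fin_cases k
  exacts [(roeU G).zero_mem, (roeU G).zero_mem, (roeU G).zero_mem, (roeU G).one_mem]

theorem index_mem_FP {M : Matrix (Fin 2) (Fin 2) (UU G)} (hM : addDiag M * addDiag M = addDiag M)
    (h : ∀ i k, (M i k).1 ∈ roeU G) :
    KZero.cls (addDiag M) hM - KZero.cls (diag01 (UU G)) (diag01_idem _) ∈ FP G := by
  refine (FP G).sub_mem (cls_mem_FP _ fun i k => ?_) diag01_mem_FP
  refine (roeU G).add_mem (h i k) ?_
  fin_cases i <;> fin_cases k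
  exacts [(roeU G).zero_mem, (roeU G).zero_mem, (roeU G).zero_mem, (roeU G).one_mem]

theorem miss_diag {P : L2 G →L[ℂ] L2 G} {len : G → ℕ} {κ : ℝ} (hD : BC.Detect P len κ)
    (hP : P ∈ CstarR G) (hPP : P * P = P) {a : UU G} (ha : a * a = a) (haP : a.1 = Ei 0 0 P)
    (m : ℕ) (hm : 1 ≤ m) :
    KZero.cls (Matrix.diagonal fun _ : Fin m => a) (diag_idem ha) ∉ FP G := by
  rintro ⟨n, e, f, he, hf, h1, h2, h⟩
  have h3 : KZero.cls _ (blocks_idem he (zero_idem (ι := Fin m))) =
      KZero.cls _ (blocks_idem hf (diag_idem (ι := Fin m) ha)) := by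
    rw [KZero.cls_blocks he zero_idem, KZero.cls_blocks hf (diag_idem ha), KZero.cls_zero, h]
    abel
  have h4 := (cls_eq_iff_sameK (valU G) valU_inj isU_iff_valU _ _).1 h3
  rw [map_blocks, map_blocks, Matrix.map_zero _ (map_zero _),
    Matrix.diagonal_map (map_zero _)] at h4
  simp only [valU_apply, haP] at h4
  exact not_same hD hP hPP m hm (e.map (valU G)) (f.map (valU G)) h1 h2
    (by rw [← Matrix.map_mul, he]) (by rw [← Matrix.map_mul, hf]) h4

theorem miss {P : L2 G →L[ℂ] L2 G} {len : G → ℕ} {κ : ℝ} (hD : BC.Detect P len κ)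
    (hP : P ∈ CstarR G) (hPP : P * P = P) {a : UU G} (ha : a * a = a) (haP : a.1 = Ei 0 0 P)
    (m : ℕ) (hm : 1 ≤ m) :
    m • KZero.cls (Matrix.diagonal fun _ : Fin 1 => a) (diag_idem ha) ∉ FP G := by
  rw [← KZero.cls_diag ha]
  exact miss_diag hD hP hPP ha haP m hm

section Range

universe v

variable {A : Type} [Ring A] (cor : A →ₙ+* UU G) {Γ : Type v} [AddCommGroup Γ]
  (μ : Γ →+ KZero A) (hμ : ∀ z, KZero.map cor (μ z) ∈ FP G)
  {P : L2 G →L[ℂ] L2 G} {len : G → ℕ} {κ : ℝ} (hD : BC.Detect P len κ)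
  (hP : P ∈ CstarR G) (hPP : P * P = P) {a : A} (ha : a * a = a) (haP : (cor a).1 = Ei 0 0 P)

include hμ hD hP hPP haP

theorem miss_range_diag (m : ℕ) (hm : 1 ≤ m) :
    KZero.cls (Matrix.diagonal fun _ : Fin m => a) (diag_idem ha) ∉ μ.range := by
  rintro ⟨z, hz⟩
  have h := hμ z
  have h2 : cor a * cor a = cor a := by rw [← map_mul, ha]
  rw [hz, KZero.map_cls, KZero.cls_congr _ (diag_idem h2) (Matrix.diagonal_map (map_zero _))] at h
  exact miss_diag hD hP hPP h2 haP m hm h

theorem miss_range (m : ℕ) (hm : 1 ≤ m) :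
    m • KZero.cls (Matrix.diagonal fun _ : Fin 1 => a) (diag_idem ha) ∉ μ.range := by
  rw [← KZero.cls_diag ha]
  exact miss_range_diag cor μ hμ hD hP hPP ha haP m hm

/-- The same for any matrix of size one with the entry `a`, and any nonzero integer multiple. -/
theorem miss_range_int (q : Matrix (Fin 1) (Fin 1) A) (hq : q * q = q) (hqa : q 0 0 = a)
    (m : ℤ) (hm : m ≠ 0) : m • KZero.cls q hq ∉ μ.range := by
  have h1 : q = Matrix.diagonal fun _ : Fin 1 => a := by
    ext i k
    rw [Subsingleton.elim i 0, Subsingleton.elim k 0, hqa, Matrix.diagonal_apply_eq]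
  have ha : a * a = a := by
    have h2 := congrFun (congrFun hq 0) 0
    rwa [Matrix.mul_apply, Fin.sum_univ_one, hqa] at h2
  rw [KZero.cls_congr hq (diag_idem ha) h1]
  intro h
  refine miss_range cor μ hμ hD hP hPP ha haP m.natAbs (Int.natAbs_pos.2 hm) ?_
  rw [← natCast_zsmul]
  rcases Int.natAbs_eq m with h3 | h3
  · rwa [← h3]
  · have h4 := μ.range.neg_mem h
    rwa [← neg_smul, h3, neg_neg] at h4

include ha in
theorem not_surjective : ¬ Function.Surjective μ := fun h =>
  miss_range_diag cor μ hμ hD hP hPP ha haP 1 le_rfl (h _)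

end Range

end Vale.Agent.P089G
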