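import Vale.Agent.P089G44.Fl

/-! P089: the unitized Roe algebra is generated by the operators `λ_g ⊗ e_ij`. -/

namespace Vale.Agent.P089G

open Vale.Agent.P089 Vale.Agent.P089.Asm Vale.Agent.P086 Vale.Agent.P089G44

variable {G : Type} [Group G] {S : Subalgebra ℂ (L2 (G × ℕ) →L[ℂ] L2 (G × ℕ))}

theorem Ei_mem_of (hS : IsClosed (S : Set (L2 (G × ℕ) →L[ℂ] L2 (G × ℕ))))
    (h : ∀ i j (g : G), Ei i j (lam g) ∈ S) (i j : ℕ) {T : L2 G →L[ℂ] L2 G}
    (hT : T ∈ CstarR G) : Ei i j T ∈ S := by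
  have h0 : Ei 0 0 T ∈ S := by
    have h1 : IsClosed {T : L2 G →L[ℂ] L2 G | Ei 0 0 T ∈ S} :=
      hS.preimage (EiL (G := G)).continuous
    refine closure_minimal (fun T hT => ?_) h1 hT
    have h2 : Submodule.span ℂ {T : L2 G →L[ℂ] L2 G | ∃ g, IsLam g T} ≤
        (Subalgebra.toSubmodule S).comap (EiL (G := G)).toLinearMap := by
      rw [Submodule.span_le]
      rintro T ⟨g, hg⟩
      rw [isLam_iff] at hg
      subst hg
      exact h 0 0 g
    exact h2 hT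
  have h3 : Ei i j T = Ei i 0 (lam (1 : G)) * Ei 0 0 T * Ei 0 j (lam (1 : G)) := by
    rw [Ei_mul, if_pos rfl, Ei_mul, if_pos rfl, lam_one, one_mul, mul_one]
  rw [h3]
  exact S.mul_mem (S.mul_mem (h _ _ _) h0) (h _ _ _)

theorem UU_le (hS : IsClosed (S : Set (L2 (G × ℕ) →L[ℂ] L2 (G × ℕ))))
    (h : ∀ i j (g : G), Ei i j (lam g) ∈ S) : UU G ≤ S := by
  have h1 : ∀ T : L2 (G × ℕ) →L[ℂ] L2 (G × ℕ), RoeB T → T ∈ S := by
    intro T hT
    have h2 : ∀ k, pk k * T * pk k ∈ S := by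
      intro k
      rw [pk_eq, Finset.sum_mul, Finset.sum_mul]
      refine S.sum_mem fun i _ => ?_
      rw [Finset.mul_sum]
      refine S.sum_mem fun j _ => ?_
      rw [← Ei_cmp]
      exact Ei_mem_of hS h _ _ (UU_cmp_mem (roeU_le_UU hT.mem_roeU) _ _)
    refine hS.closure_subset (Metric.mem_closure_iff.2 fun ε hε => ?_)
    obtain ⟨k, hk⟩ := hT.exists_cut (half_pos hε)
    refine ⟨_, h2 k, ?_⟩
    rw [dist_eq_norm]
    exact (hk k le_rfl).trans_lt (half_lt_self hε)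
  refine (roeU G).topologicalClosure_minimal ?_ hS
  rintro T ⟨c, hc⟩
  have h3 := S.add_mem (h1 _ hc) (S.smul_mem S.one_mem c)
  rwa [sub_add_cancel] at h3

theorem Ei_mem_UU' (i j : ℕ) {T : L2 G →L[ℂ] L2 G} (hT : T ∈ CstarR G) : Ei i j T ∈ UU G := by
  have h3 : Ei i j T = Ei i 0 1 * Ei 0 0 T * Ei 0 j 1 := by
    rw [Ei_mul, if_pos rfl, Ei_mul, if_pos rfl, one_mul, mul_one]
  rw [h3]
  exact (UU G).mul_mem ((UU G).mul_mem (eu G i 0).2 (Ei_mem_UU hT)) (eu G 0 j).2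

theorem lam_mem_CstarR (g : G) : lam g ∈ CstarR G :=
  subset_closure (Submodule.subset_span ⟨g, isLam_iff.2 rfl⟩)

/-- The generators, described by their values on the basis vectors. -/
theorem eq_Ei_lam_iff {T : L2 (G × ℕ) →L[ℂ] L2 (G × ℕ)} {g : G} {i j : ℕ} :
    T = Ei i j (lam g) ↔
      (∀ x, T (dl (x, j)) = dl (g * x, i)) ∧ ∀ x n, n ≠ j → T (dl (x, n)) = 0 := by
  have h1 : ∀ x, Ei i j (lam g) (dl (x, j)) = dl (g * x, i) := fun x => by
    change Vi i (lam g (ContinuousLinearMap.adjoint (Vi j) (dl (x, j)))) = _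
    rw [adj_Vi_dl_self, lam_dl, Vi_dl]
  have h2 : ∀ x n, n ≠ j → Ei i j (lam g) (dl (x, n)) = 0 := fun x n hn => by
    change Vi i (lam g (ContinuousLinearMap.adjoint (Vi j) (dl (x, n)))) = _
    rw [adj_Vi_dl_ne hn, map_zero, map_zero]
  constructor
  · rintro rfl
    exact ⟨h1, h2⟩
  · rintro ⟨h3, h4⟩
    refine clm_ext_dl fun a => ?_
    obtain ⟨x, n⟩ := a
    by_cases hn : n = j
    · subst hn
      rw [h3, h1]
    · rw [h4 x n hn, h2 x n hn]

theorem UU_eq : UU G = (Algebra.adjoin ℂ {T : L2 (G × ℕ) →L[ℂ] L2 (G × ℕ) | ∃ g i j,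
    (∀ x, T (dl (x, j)) = dl (g * x, i)) ∧ ∀ x n, n ≠ j → T (dl (x, n)) = 0}).topologicalClosure := by
  refine le_antisymm (UU_le (Subalgebra.isClosed_topologicalClosure _) fun i j g =>
    Subalgebra.le_topologicalClosure _
      (Algebra.subset_adjoin ⟨g, i, j, eq_Ei_lam_iff.1 rfl⟩)) ?_
  refine Subalgebra.topologicalClosure_minimal (Algebra.adjoin_le ?_) (isClosed_UU G)
  rintro T ⟨g, i, j, h⟩
  rw [eq_Ei_lam_iff.2 h]
  exact Ei_mem_UU' i j (lam_mem_CstarR g)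

end Vale.Agent.P089G
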