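import Vale.Agent.P089GM.Kit

/-! P089: equality in `K_0` is stable equivalence. -/

namespace Vale.Agent.P089G

open Matrix

variable {R : Type} [Ring R] {ι κ μ : Type} [Fintype ι] [Fintype κ] [Fintype μ]

theorem Eqv.comm {e : Matrix ι ι R} {f : Matrix κ κ R} (he : e * e = e) (hf : f * f = f) :
    Eqv (Matrix.fromBlocks e 0 0 f) (Matrix.fromBlocks f 0 0 e) := by
  have h := Eqv.submatrix (blocks_idem hf he) (Equiv.sumComm ι κ)
  have h2 : (Matrix.fromBlocks f 0 0 e).submatrix (Equiv.sumComm ι κ) (Equiv.sumComm ι κ) =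
      Matrix.fromBlocks e 0 0 f := by
    ext i j
    rcases i with i | i <;> rcases j with j | j <;> simp
  rwa [h2] at h

theorem Eqv.assoc {e : Matrix ι ι R} {f : Matrix κ κ R} {g : Matrix μ μ R} (he : e * e = e)
    (hf : f * f = f) (hg : g * g = g) :
    Eqv (Matrix.fromBlocks (Matrix.fromBlocks e 0 0 f) 0 0 g)
      (Matrix.fromBlocks e 0 0 (Matrix.fromBlocks f 0 0 g)) := by
  have h := Eqv.submatrix (blocks_idem he (blocks_idem hf hg)) (Equiv.sumAssoc ι κ μ)
  have h3 : (Matrix.fromBlocks e 0 0 (Matrix.fromBlocks f 0 0 g)).submatrix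
      (Equiv.sumAssoc ι κ μ) (Equiv.sumAssoc ι κ μ) =
      Matrix.fromBlocks (Matrix.fromBlocks e 0 0 f) 0 0 g := by
    ext i j
    rcases i with (i | i) | i <;> rcases j with (j | j) | j <;> simp
  rwa [h3] at h

theorem Eqv.zero_left {e : Matrix ι ι R} (he : e * e = e) :
    Eqv (Matrix.fromBlocks (0 : Matrix κ κ R) 0 0 e) e := by
  refine ⟨Matrix.fromRows 0 e, Matrix.fromCols 0 e, ?_, ?_⟩
  · rw [Matrix.fromRows_mul_fromCols, he]
    simp
  · rw [Matrix.fromCols_mul_fromRows, he]
    simp

theorem Eqv.zero_right {e : Matrix ι ι R} (he : e * e = e) :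
    Eqv (Matrix.fromBlocks e 0 0 (0 : Matrix κ κ R)) e :=
  (Eqv.comm he zero_idem).trans (blocks_idem he zero_idem) he (Eqv.zero_left he)

/-- Direct sum of idempotent matrices. -/
noncomputable def Idem.add (a b : Idem R) : Idem R := Idem.of _ (blocks_idem a.idem b.idem)

theorem Idem.add_eqv (a b : Idem R) : Eqv (a.add b).e (Matrix.fromBlocks a.e 0 0 b.e) :=
  Idem.of_eqv _ _

/-- Equivalence of idempotent matrices. -/
def idemSetoid (R : Type) [Ring R] : Setoid (Idem R) where
  r a b := Eqv a.e b.e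
  iseqv := ⟨fun a => Eqv.refl a.idem, Eqv.symm, fun {a _ c} => Eqv.trans a.idem c.idem⟩

/-- The monoid of equivalence classes of idempotent matrices. -/
def VV (R : Type) [Ring R] : Type := Quotient (idemSetoid R)

/-- The class of an idempotent matrix. -/
noncomputable def VV.cls (e : Matrix ι ι R) (h : e * e = e) : VV R :=
  Quotient.mk (idemSetoid R) (Idem.of e h)

theorem VV.cls_eq_iff {e : Matrix ι ι R} {f : Matrix κ κ R} (he : e * e = e) (hf : f * f = f) :
    VV.cls e he = VV.cls f hf ↔ Eqv e f := by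
  constructor
  · intro h
    have h' : Eqv (Idem.of e he).e (Idem.of f hf).e := Quotient.exact h
    exact ((Idem.of_eqv e he).symm.trans he (Idem.of f hf).idem h').trans he hf
      (Idem.of_eqv f hf)
  · intro h
    refine Quotient.sound (s := idemSetoid R) ?_
    change Eqv _ _
    exact ((Idem.of_eqv e he).trans (Idem.of e he).idem hf h).trans
      (Idem.of e he).idem (Idem.of f hf).idem (Idem.of_eqv f hf).symm

theorem VV.ind {P : VV R → Prop} (h : ∀ (n : ℕ) (e : Matrix (Fin n) (Fin n) R) (he : e * e = e),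
    P (VV.cls e he)) (x : VV R) : P x := by
  induction x using Quotient.inductionOn with
  | h a =>
    have h1 : VV.cls a.e a.idem = Quotient.mk (idemSetoid R) a :=
      Quotient.sound (s := idemSetoid R) (Idem.of_eqv a.e a.idem)
    rw [← h1]
    exact h _ _ _

theorem Idem.add_congr {a a' : Idem R} (ha : Eqv a.e a'.e) {b b' : Idem R}
    (hb : Eqv b.e b'.e) : Eqv (a.add b).e (a'.add b').e :=
  (((Idem.add_eqv a b).trans (a.add b).idem (blocks_idem a'.idem b'.idem)
      (Eqv.fromBlocks ha hb)).trans (a.add b).idem (a'.add b').idem (Idem.add_eqv a' b').symm)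

noncomputable instance vvAdd (R : Type) [Ring R] : Add (VV R) :=
  ⟨Quotient.map₂ (sa := idemSetoid R) (sb := idemSetoid R) (sc := idemSetoid R) Idem.add
    fun _ _ h _ _ h' => Idem.add_congr h h'⟩

noncomputable instance vvZero (R : Type) [Ring R] : Zero (VV R) :=
  ⟨VV.cls (0 : Matrix (Fin 0) (Fin 0) R) zero_idem⟩

theorem VV.add_cls {e : Matrix ι ι R} {f : Matrix κ κ R} (he : e * e = e) (hf : f * f = f) :
    VV.cls e he + VV.cls f hf = VV.cls (Matrix.fromBlocks e 0 0 f) (blocks_idem he hf) := by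
  have h1 : VV.cls e he + VV.cls f hf =
      VV.cls _ (blocks_idem (Idem.of e he).idem (Idem.of f hf).idem) := rfl
  rw [h1, VV.cls_eq_iff]
  exact Eqv.fromBlocks (Idem.of_eqv e he) (Idem.of_eqv f hf)

theorem VV.zero_def : (0 : VV R) = VV.cls (0 : Matrix (Fin 0) (Fin 0) R) zero_idem := rfl

noncomputable instance vvMonoid (R : Type) [Ring R] : AddCommMonoid (VV R) where
  add_assoc a b c := by
    induction a using VV.ind with | h _ e he => ?_
    induction b using VV.ind with | h _ f hf => ?_
    induction c using VV.ind with | h _ g hg => ?_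
    rw [VV.add_cls, VV.add_cls, VV.add_cls, VV.add_cls, VV.cls_eq_iff]
    exact Eqv.assoc he hf hg
  zero_add a := by
    induction a using VV.ind with | h _ e he => ?_
    rw [VV.zero_def, VV.add_cls, VV.cls_eq_iff]
    exact Eqv.zero_left he
  add_zero a := by
    induction a using VV.ind with | h _ e he => ?_
    rw [VV.zero_def, VV.add_cls, VV.cls_eq_iff]
    exact Eqv.zero_right he
  add_comm a b := by
    induction a using VV.ind with | h _ e he => ?_
    induction b using VV.ind with | h _ f hf => ?_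
    rw [VV.add_cls, VV.add_cls, VV.cls_eq_iff]
    exact Eqv.comm he hf
  nsmul := nsmulRec

/-- The comparison with the Grothendieck group. -/
noncomputable def KZero.toGr (R : Type) [Ring R] :
    KZero R →+ Algebra.GrothendieckAddGroup (VV R) :=
  KZero.lift (fun e he => Algebra.GrothendieckAddGroup.of (VV.cls e he))
    (fun _ _ he hf h => congrArg _ ((VV.cls_eq_iff he hf).2 h))
    (fun _ _ he hf => by rw [← VV.add_cls he hf, map_add])

theorem KZero.toGr_cls (e : Matrix ι ι R) (he : e * e = e) :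
    KZero.toGr R (KZero.cls e he) = Algebra.GrothendieckAddGroup.of (VV.cls e he) :=
  KZero.lift_cls (fun e he => Algebra.GrothendieckAddGroup.of (VV.cls e he))
    (fun _ _ he hf h => congrArg _ ((VV.cls_eq_iff he hf).2 h))
    (fun _ _ he hf => by rw [← VV.add_cls he hf, map_add]) e he

/-- Equality in `K_0` is stable equivalence. -/
theorem KZero.cls_eq_iff {e : Matrix ι ι R} {f : Matrix κ κ R} (he : e * e = e)
    (hf : f * f = f) : KZero.cls e he = KZero.cls f hf ↔
      ∃ n : ℕ, Eqv (Matrix.fromBlocks e 0 0 (1 : Matrix (Fin n) (Fin n) R))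
        (Matrix.fromBlocks f 0 0 (1 : Matrix (Fin n) (Fin n) R)) := by
  constructor
  · intro h
    have h1 : ∃ c : VV R, c + VV.cls e he = c + VV.cls f hf := by
      have h0 := congrArg (KZero.toGr R) h
      rw [KZero.toGr_cls, KZero.toGr_cls] at h0
      obtain ⟨c, hc⟩ := (AddLocalization.addMonoidOf (⊤ : AddSubmonoid (VV R))).eq_iff_exists.1 h0
      exact ⟨c, hc⟩
    obtain ⟨c, hc⟩ := h1
    induction c using VV.ind with | h n g hg => ?_
    refine ⟨n, ?_⟩
    have h2 : VV.cls g hg + VV.cls (1 - g) (compl_idem hg) =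
        VV.cls (1 : Matrix (Fin n) (Fin n) R) (one_mul 1) := by
      rw [VV.add_cls, VV.cls_eq_iff]
      have h4 := Eqv.add hg (compl_idem hg) (by rw [mul_sub, hg, mul_one, sub_self])
        (by rw [sub_mul, hg, one_mul, sub_self])
      rw [add_sub_cancel] at h4
      exact h4.symm
    have h3 : VV.cls e he + VV.cls (1 : Matrix (Fin n) (Fin n) R) (one_mul 1) =
        VV.cls f hf + VV.cls (1 : Matrix (Fin n) (Fin n) R) (one_mul 1) := by
      rw [← h2, ← add_assoc, ← add_assoc, add_comm (VV.cls e he), add_comm (VV.cls f hf), hc]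
    rwa [VV.add_cls, VV.add_cls, VV.cls_eq_iff] at h3
  · rintro ⟨n, h⟩
    have h1 := KZero.cls_eq_of_mvn (blocks_idem he (one_mul 1)) (blocks_idem hf (one_mul 1)) h
    rw [KZero.cls_blocks he (one_mul 1), KZero.cls_blocks hf (one_mul 1)] at h1
    exact add_right_cancel h1

/-- The entries of `e` satisfy `p`. -/
def Ent (p : R → Prop) (e : Matrix ι κ R) : Prop := ∀ i j, p (e i j)

omit [Fintype ι] [Fintype κ] in
theorem Ent.blocks {p : R → Prop} (h0 : p 0) {e : Matrix ι ι R} {f : Matrix κ κ R}
    (he : Ent p e) (hf : Ent p f) : Ent p (Matrix.fromBlocks e 0 0 f) := by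
  rintro (i | i) (j | j)
  exacts [he i j, h0, h0, hf i j]

/-- The differences of classes of idempotent matrices whose entries satisfy `p`. -/
def KZero.sub (p : R → Prop) (h0 : p 0) : AddSubgroup (KZero R) where
  carrier := {x | ∃ (n : ℕ) (e f : Matrix (Fin n) (Fin n) R) (he : e * e = e) (hf : f * f = f),
    Ent p e ∧ Ent p f ∧ x = KZero.cls e he - KZero.cls f hf}
  zero_mem' := ⟨0, 0, 0, zero_idem, zero_idem, fun _ _ => h0, fun _ _ => h0, (sub_self _).symm⟩
  neg_mem' := by
    rintro _ ⟨n, e, f, he, hf, h1, h2, rfl⟩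
    exact ⟨n, f, e, hf, he, h2, h1, neg_sub _ _⟩
  add_mem' := by
    rintro _ _ ⟨n, e, f, he, hf, h1, h2, rfl⟩ ⟨m, e', f', he', hf', h1', h2', rfl⟩
    refine ⟨n + m, _, _, sub_idem (blocks_idem he he') finSumFinEquiv.symm,
      sub_idem (blocks_idem hf hf') finSumFinEquiv.symm, fun i j => Ent.blocks h0 h1 h1' _ _,
      fun i j => Ent.blocks h0 h2 h2' _ _, ?_⟩
    rw [KZero.cls_submatrix (blocks_idem he he'), KZero.cls_submatrix (blocks_idem hf hf'),
      KZero.cls_blocks he he', KZero.cls_blocks hf hf']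
    abel

theorem KZero.cls_mem_sub {p : R → Prop} (h0 : p 0) {e : Matrix ι ι R} (he : e * e = e)
    (h : ∀ i j, p (e i j)) : KZero.cls e he ∈ KZero.sub p h0 :=
  ⟨_, (Idem.of e he).e, 0, (Idem.of e he).idem, zero_idem, fun _ _ => h _ _, fun _ _ => h0, by
    rw [KZero.cls_zero, sub_zero, ← KZero.of_eq, KZero.cls_def]⟩

/-- Every element of `K_0` is a difference of classes of idempotent matrices. -/
theorem KZero.exists_rep (x : KZero R) : ∃ (n : ℕ) (e f : Matrix (Fin n) (Fin n) R)
    (he : e * e = e) (hf : f * f = f), x = KZero.cls e he - KZero.cls f hf := by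
  obtain ⟨n, e, f, he, hf, -, -, h⟩ := KZero.mem_of (KZero.sub (fun _ : R => True) trivial)
    (fun _ _ he => KZero.cls_mem_sub trivial he fun _ _ => trivial) x
  exact ⟨n, e, f, he, hf, h⟩

theorem diag_idem [DecidableEq ι] {a : R} (ha : a * a = a) :
    (Matrix.diagonal fun _ : ι => a) * (Matrix.diagonal fun _ : ι => a) =
      Matrix.diagonal fun _ : ι => a := by
  rw [Matrix.diagonal_mul_diagonal]
  simp only [ha]

/-- The class of a diagonal matrix with constant diagonal. -/
theorem KZero.cls_diag {a : R} (ha : a * a = a) (m : ℕ) :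
    KZero.cls (Matrix.diagonal fun _ : Fin m => a) (diag_idem ha) =
      m • KZero.cls (Matrix.diagonal fun _ : Fin 1 => a) (diag_idem ha) := by
  induction m with
  | zero => rw [zero_smul]; exact KZero.cls_eq_zero _ (Subsingleton.elim _ _)
  | succ m ih =>
    rw [succ_nsmul, ← ih, ← KZero.cls_blocks, ← KZero.cls_submatrix _ finSumFinEquiv]
    refine KZero.cls_congr _ _ ?_
    rw [Matrix.submatrix_diagonal_equiv, Matrix.fromBlocks_diagonal]
    congr 1
    funext i
    rcases i with i | i <;> rfl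

theorem KZero.cls_one [DecidableEq ι] : KZero.cls (1 : Matrix ι ι R) (one_mul 1) =
    Fintype.card ι • KZero.cls (1 : Matrix (Fin 1) (Fin 1) R) (one_mul 1) := by
  have h := KZero.cls_diag (one_mul (1 : R)) (Fintype.card ι)
  rw [← KZero.cls_submatrix _ (Fintype.equivFin ι).symm]
  refine (KZero.cls_congr _ _ ?_).trans h
  rw [Matrix.submatrix_one_equiv]
  rfl

end Vale.Agent.P089G
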